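import Mathlib

/-!
# P227, block DENS: mollification

`moll η g x = ∫ t, η t • g (x - t)` on a finite-dimensional inner product space.
Derivatives of mollified locally Lipschitz functions, bounds, convergence.
-/

open MeasureTheory Filter Topology Set Metric
open scoped Convolution ContDiff

namespace Vale.Agent.P227.M.DENS

variable {E : Type*} [NormedAddCommGroup E] [InnerProductSpace ℝ E] [FiniteDimensional ℝ E]
  [MeasurableSpace E] [BorelSpace E]
variable {F : Type*} [NormedAddCommGroup F] [NormedSpace ℝ F]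

/-- Mollification with kernel `η`. -/
noncomputable def moll (η : E → ℝ) (g : E → F) (x : E) : F := ∫ t, η t • g (x - t)

theorem moll_eq_convolution (η : E → ℝ) (g : E → F) :
    moll η g = (η ⋆[ContinuousLinearMap.lsmul ℝ ℝ, volume] g) := by
  ext x
  rw [moll, convolution_lsmul]

theorem integrable_moll {η : E → ℝ} (hη : Continuous η) (hηc : HasCompactSupport η)
    {g : E → F} (hg : Continuous g) (x : E) :
    Integrable (fun t => η t • g (x - t)) := by
  have hc : Continuous (fun t => η t • g (x - t)) := by fun_prop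
  exact hc.integrable_of_hasCompactSupport (hηc.smul_right)

/-- Derivative of the mollification of a continuous, locally Lipschitz function which is
differentiable almost everywhere. -/
theorem hasFDerivAt_moll_aux [FiniteDimensional ℝ F]
    {η : E → ℝ} (hη : Continuous η) (hηc : HasCompactSupport η)
    {g : E → F} (hg : Continuous g) (hae : ∀ᵐ x, DifferentiableAt ℝ g x)
    (hlip : ∀ R : ℝ, ∃ K, LipschitzOnWith K g (closedBall 0 R)) (x : E) :
    HasFDerivAt (moll η g) (moll η (fderiv ℝ g) x) x := by
  obtain ⟨r, hr⟩ := hηc.isCompact.isBounded.subset_closedBall (0 : E)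
  obtain ⟨K, hK⟩ := hlip (‖x‖ + 1 + r)
  have hae' : ∀ᵐ t, DifferentiableAt ℝ g (x - t) := by
    have hmp : MeasurePreserving (fun t : E => x - t) volume volume :=
      Measure.measurePreserving_sub_left volume x
    exact hmp.quasiMeasurePreserving.ae hae
  have hmeas : AEStronglyMeasurable (fun t => η t • fderiv ℝ g (x - t)) volume := by
    have h1 : AEStronglyMeasurable (fun t => fderiv ℝ g (x - t)) volume := by
      have : Measurable (fun t => fderiv ℝ g (x - t)) :=
        (measurable_fderiv ℝ g).comp (measurable_const.sub measurable_id)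
      exact this.aestronglyMeasurable
    exact hη.aestronglyMeasurable.smul h1
  have key := hasFDerivAt_integral_of_dominated_loc_of_lip (𝕜 := ℝ) (μ := (volume : Measure E))
    (F := fun y t => η t • g (y - t)) (F' := fun t => η t • fderiv ℝ g (x - t))
    (bound := fun t => |η t| * K) (s := ball x 1) (x₀ := x) (ball_mem_nhds x one_pos)
    (Eventually.of_forall fun y => (integrable_moll hη hηc hg y).aestronglyMeasurable)
    (integrable_moll hη hηc hg x) hmeas ?_ ?_ ?_
  · exact key.2
  · refine Eventually.of_forall fun t => ?_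
    intro y hy z hz
    have hb : Real.nnabs (|η t| * K) = ‖η t‖₊ * K := by
      ext
      simp
    rw [hb]
    by_cases ht : t ∈ tsupport η
    · have ht' : ‖t‖ ≤ r := by simpa using hr ht
      have hy' : y - t ∈ closedBall (0 : E) (‖x‖ + 1 + r) := by
        rw [mem_closedBall, dist_zero_right]
        have h1 : ‖y - x‖ < 1 := by simpa [dist_eq_norm] using hy
        have h2 : ‖y‖ ≤ ‖x‖ + 1 := by
          calc ‖y‖ = ‖(y - x) + x‖ := by rw [sub_add_cancel]
            _ ≤ ‖y - x‖ + ‖x‖ := norm_add_le _ _
            _ ≤ ‖x‖ + 1 := by linarith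
        calc ‖y - t‖ ≤ ‖y‖ + ‖t‖ := norm_sub_le _ _
          _ ≤ _ := by linarith
      have hz' : z - t ∈ closedBall (0 : E) (‖x‖ + 1 + r) := by
        rw [mem_closedBall, dist_zero_right]
        have h1 : ‖z - x‖ < 1 := by simpa [dist_eq_norm] using hz
        have h2 : ‖z‖ ≤ ‖x‖ + 1 := by
          calc ‖z‖ = ‖(z - x) + x‖ := by rw [sub_add_cancel]
            _ ≤ ‖z - x‖ + ‖x‖ := norm_add_le _ _
            _ ≤ ‖x‖ + 1 := by linarith
        calc ‖z - t‖ ≤ ‖z‖ + ‖t‖ := norm_sub_le _ _
          _ ≤ _ := by linarith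
      have h3 := hK hy' hz'
      rw [edist_sub_right] at h3
      show edist (η t • g (y - t)) (η t • g (z - t)) ≤ _
      calc edist (η t • g (y - t)) (η t • g (z - t))
          = ‖η t‖₊ * edist (g (y - t)) (g (z - t)) := by
            rw [edist_smul₀, ENNReal.smul_def, smul_eq_mul]
        _ ≤ ‖η t‖₊ * (K * edist y z) := by gcongr
        _ = ((‖η t‖₊ * K : NNReal) : ENNReal) * edist y z := by
            rw [ENNReal.coe_mul, mul_assoc]
    · have h0 : η t = 0 := image_eq_zero_of_notMem_tsupport ht
      simp [h0]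
  · exact (((hη.abs).mul continuous_const).integrable_of_hasCompactSupport
      (hηc.norm.mul_right))
  · filter_upwards [hae'] with t ht
    have h1 : HasFDerivAt (fun y : E => y - t) (ContinuousLinearMap.id ℝ E) x :=
      (hasFDerivAt_id x).sub_const t
    have h2 : HasFDerivAt (fun y : E => g (y - t)) (fderiv ℝ g (x - t)) x := by
      have := (ht.hasFDerivAt).comp x h1
      rw [ContinuousLinearMap.comp_id] at this
      exact this
    exact h2.const_smul (η t)

theorem hasFDerivAt_moll_of_contDiff [FiniteDimensional ℝ F]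
    {η : E → ℝ} (hη : Continuous η) (hηc : HasCompactSupport η)
    {g : E → F} (hg : ContDiff ℝ 1 g) (x : E) :
    HasFDerivAt (moll η g) (moll η (fderiv ℝ g) x) x := by
  refine hasFDerivAt_moll_aux hη hηc hg.continuous
    (Eventually.of_forall fun y => (hg.differentiable one_ne_zero) y) (fun R => ?_) x
  exact LocallyLipschitzOn.exists_lipschitzOnWith_of_compact (isCompact_closedBall 0 R)
    (fun y _ => by
      obtain ⟨K, t, ht, h⟩ := hg.locallyLipschitz y
      exact ⟨K, t, mem_nhdsWithin_of_mem_nhds ht, h⟩)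

theorem hasFDerivAt_moll_of_lipschitz [FiniteDimensional ℝ F]
    {η : E → ℝ} (hη : Continuous η) (hηc : HasCompactSupport η)
    {K : NNReal} {g : E → F} (hg : LipschitzWith K g) (x : E) :
    HasFDerivAt (moll η g) (moll η (fderiv ℝ g) x) x :=
  hasFDerivAt_moll_aux hη hηc hg.continuous hg.ae_differentiableAt
    (fun _ => ⟨K, hg.lipschitzOnWith⟩) x

theorem fderiv_moll_of_contDiff [FiniteDimensional ℝ F]
    {η : E → ℝ} (hη : Continuous η) (hηc : HasCompactSupport η)
    {g : E → F} (hg : ContDiff ℝ 1 g) :
    fderiv ℝ (moll η g) = moll η (fderiv ℝ g) :=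
  funext fun x => (hasFDerivAt_moll_of_contDiff hη hηc hg x).fderiv

theorem fderiv_moll_of_lipschitz [FiniteDimensional ℝ F]
    {η : E → ℝ} (hη : Continuous η) (hηc : HasCompactSupport η)
    {K : NNReal} {g : E → F} (hg : LipschitzWith K g) :
    fderiv ℝ (moll η g) = moll η (fderiv ℝ g) :=
  funext fun x => (hasFDerivAt_moll_of_lipschitz hη hηc hg x).fderiv

/-! ### Bounds -/

theorem moll_const_le {η : E → ℝ} (hη : Continuous η) (hηc : HasCompactSupport η)
    (h0 : ∀ t, 0 ≤ η t) (h1 : ∫ t, η t = 1) {g : E → ℝ} (hg : Continuous g) {c : ℝ}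
    (hc : ∀ x, c ≤ g x) (x : E) : c ≤ moll η g x := by
  have hi : Integrable η := hη.integrable_of_hasCompactSupport hηc
  calc c = ∫ t, η t * c := by rw [integral_mul_const, h1, one_mul]
    _ ≤ ∫ t, η t • g (x - t) := by
        refine integral_mono (hi.mul_const c) (integrable_moll hη hηc hg x) fun t => ?_
        exact mul_le_mul_of_nonneg_left (hc _) (h0 t)

theorem moll_le_const {η : E → ℝ} (hη : Continuous η) (hηc : HasCompactSupport η)
    (h0 : ∀ t, 0 ≤ η t) (h1 : ∫ t, η t = 1) {g : E → ℝ} (hg : Continuous g) {C : ℝ}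
    (hC : ∀ x, g x ≤ C) (x : E) : moll η g x ≤ C := by
  have hi : Integrable η := hη.integrable_of_hasCompactSupport hηc
  calc moll η g x ≤ ∫ t, η t * C := by
        refine integral_mono (integrable_moll hη hηc hg x) (hi.mul_const C) fun t => ?_
        exact mul_le_mul_of_nonneg_left (hC _) (h0 t)
    _ = C := by rw [integral_mul_const, h1, one_mul]

/-- `‖moll η g x - g x‖ ≤ ε` if `g` varies by at most `ε` on the translated support. -/
theorem norm_moll_sub_le {η : E → ℝ} (hη : Continuous η) (hηc : HasCompactSupport η)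
    (h0 : ∀ t, 0 ≤ η t) (h1 : ∫ t, η t = 1) {g : E → F} (hg : Continuous g) [CompleteSpace F]
    {x : E} {ε : ℝ} (hε : ∀ t, η t ≠ 0 → ‖g (x - t) - g x‖ ≤ ε) :
    ‖moll η g x - g x‖ ≤ ε := by
  have hi : Integrable η := hη.integrable_of_hasCompactSupport hηc
  have e1 : moll η g x - g x = ∫ t, η t • (g (x - t) - g x) := by
    simp_rw [smul_sub]
    rw [integral_sub (integrable_moll hη hηc hg x) (hi.smul_const (g x)), integral_smul_const, h1,
      one_smul]
    rfl
  rw [e1]
  calc ‖∫ t, η t • (g (x - t) - g x)‖ ≤ ∫ t, η t * ε := by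
        refine norm_integral_le_of_norm_le (hi.mul_const ε) (Eventually.of_forall fun t => ?_)
        rw [norm_smul, Real.norm_of_nonneg (h0 t)]
        by_cases ht : η t = 0
        · simp [ht]
        · exact mul_le_mul_of_nonneg_left (hε t ht) (h0 t)
    _ = ε := by rw [integral_mul_const, h1, one_mul]

/-- norm bound (no continuity needed) -/
theorem norm_moll_le {η : E → ℝ} (hη : Continuous η) (hηc : HasCompactSupport η)
    (h0 : ∀ t, 0 ≤ η t) (h1 : ∫ t, η t = 1) {g : E → F} {B : ℝ}
    (hB : ∀ x, ‖g x‖ ≤ B) (x : E) : ‖moll η g x‖ ≤ B := by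
  have hi : Integrable η := hη.integrable_of_hasCompactSupport hηc
  calc ‖moll η g x‖ ≤ ∫ t, η t * B := by
        refine norm_integral_le_of_norm_le (hi.mul_const B) (Eventually.of_forall fun t => ?_)
        rw [norm_smul, Real.norm_of_nonneg (h0 t)]
        exact mul_le_mul_of_nonneg_left (hB _) (h0 t)
    _ = B := by rw [integral_mul_const, h1, one_mul]

theorem moll_even {η : E → ℝ} (hev : ∀ t, η (-t) = η t) {g : E → F}
    (hg : ∀ x, g (-x) = g x) (x : E) : moll η g (-x) = moll η g x := by
  unfold moll
  rw [← integral_neg_eq_self]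
  refine integral_congr_ae (Eventually.of_forall fun t => ?_)
  show η (-t) • g (-x - -t) = η t • g (x - t)
  rw [hev, ← hg (x - t)]
  congr 2
  abel

theorem lipschitz_moll {η : E → ℝ} (hη : Continuous η) (hηc : HasCompactSupport η)
    (h0 : ∀ t, 0 ≤ η t) (h1 : ∫ t, η t = 1) {K : NNReal} {g : E → F} (hg : LipschitzWith K g) :
    LipschitzWith K (moll η g) := by
  have hi : Integrable η := hη.integrable_of_hasCompactSupport hηc
  refine LipschitzWith.of_dist_le_mul fun x y => ?_
  rw [dist_eq_norm]
  have e1 : moll η g x - moll η g y = ∫ t, η t • (g (x - t) - g (y - t)) := by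
    simp_rw [smul_sub]
    rw [integral_sub (integrable_moll hη hηc hg.continuous x)
      (integrable_moll hη hηc hg.continuous y)]
    rfl
  rw [e1]
  calc ‖∫ t, η t • (g (x - t) - g (y - t))‖ ≤ ∫ t, η t * (K * dist x y) := by
        refine norm_integral_le_of_norm_le (hi.mul_const _) (Eventually.of_forall fun t => ?_)
        rw [norm_smul, Real.norm_of_nonneg (h0 t)]
        refine mul_le_mul_of_nonneg_left ?_ (h0 t)
        have := hg.dist_le_mul (x - t) (y - t)
        rwa [dist_eq_norm, dist_sub_right] at this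
    _ = K * dist x y := by rw [integral_mul_const, h1, one_mul]

theorem contDiff_moll [CompleteSpace F] {η : E → ℝ} (hη : ContDiff ℝ ∞ η) (hηc : HasCompactSupport η)
    {g : E → F} (hg : LocallyIntegrable g) : ContDiff ℝ ∞ (moll η g) := by
  rw [moll_eq_convolution]
  exact hηc.contDiff_convolution_left _ hη hg

/-! ### The standard kernels -/

/-- bump functions of radius `1/(k+1)` -/
noncomputable def bmp (E : Type*) [NormedAddCommGroup E] [InnerProductSpace ℝ E] (k : ℕ) :
    ContDiffBump (0 : E) where
  rIn := 1 / (2 * ((k : ℝ) + 1))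
  rOut := 1 / ((k : ℝ) + 1)
  rIn_pos := by positivity
  rIn_lt_rOut := by
    have : (0 : ℝ) < (k : ℝ) + 1 := by positivity
    rw [div_lt_div_iff₀ (by positivity) this]
    linarith

/-- standard kernel of radius `1/(k+1)` -/
noncomputable def ker (E : Type*) [NormedAddCommGroup E] [InnerProductSpace ℝ E]
    [FiniteDimensional ℝ E] [MeasurableSpace E] [BorelSpace E] (k : ℕ) : E → ℝ :=
  (bmp E k).normed volume

theorem ker_nonneg (k : ℕ) (t : E) : 0 ≤ ker E k t := (bmp E k).nonneg_normed t
theorem ker_integral (k : ℕ) : ∫ t, ker E k t = 1 := (bmp E k).integral_normed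
theorem ker_even (k : ℕ) (t : E) : ker E k (-t) = ker E k t := (bmp E k).normed_neg t
theorem ker_smooth (k : ℕ) : ContDiff ℝ ∞ (ker E k) := (bmp E k).contDiff_normed
theorem ker_cont (k : ℕ) : Continuous (ker E k) := (ker_smooth k).continuous
theorem ker_supp (k : ℕ) : HasCompactSupport (ker E k) := (bmp E k).hasCompactSupport_normed
theorem norm_le_of_ker_ne {k : ℕ} {t : E} (h : ker E k t ≠ 0) : ‖t‖ ≤ 1 / ((k : ℝ) + 1) := by
  have h1 : t ∈ Function.support ((bmp E k).normed volume) := h
  rw [(bmp E k).support_normed_eq] at h1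
  have h2 : ‖t‖ < (bmp E k).rOut := by simpa using h1
  exact h2.le

theorem tendsto_moll_of_continuous [CompleteSpace F] {g : E → F} (hg : Continuous g) (x : E) :
    Tendsto (fun k => moll (ker E k) g x) atTop (𝓝 (g x)) := by
  have h := ContDiffBump.convolution_tendsto_right_of_continuous (μ := (volume : Measure E))
    (φ := fun k : ℕ => bmp E k) (l := atTop) tendsto_one_div_add_atTop_nhds_zero_nat hg x
  simpa [moll_eq_convolution, ker] using h

theorem ae_tendsto_moll [CompleteSpace F] {g : E → F} (hg : LocallyIntegrable g) :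
    ∀ᵐ x, Tendsto (fun k => moll (ker E k) g x) atTop (𝓝 (g x)) := by
  have h := ContDiffBump.ae_convolution_tendsto_right_of_locallyIntegrable
    (μ := (volume : Measure E)) (g := g) (K := 2)
    (φ := fun k : ℕ => bmp E k) (l := atTop) tendsto_one_div_add_atTop_nhds_zero_nat
    (Eventually.of_forall fun k => ?_) hg
  · simpa [moll_eq_convolution, ker] using h
  · show (1 : ℝ) / ((k : ℝ) + 1) ≤ 2 * (1 / (2 * ((k : ℝ) + 1)))
    have : (0 : ℝ) < (k : ℝ) + 1 := by positivity
    field_simp
    exact le_refl _

/-- the derivative of a Lipschitz function is locally integrable -/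
theorem locallyIntegrable_fderiv_of_lipschitz [FiniteDimensional ℝ F] {K : NNReal} {g : E → F}
    (hg : LipschitzWith K g) : LocallyIntegrable (fderiv ℝ g) := by
  have : LocallyIntegrable (fun _ : E => (K : ℝ)) := locallyIntegrable_const _
  refine this.mono (measurable_fderiv ℝ g).aestronglyMeasurable (Eventually.of_forall fun x => ?_)
  refine (norm_fderiv_le_of_lipschitz ℝ hg).trans ?_
  exact le_abs_self (K : ℝ)

/-- convergence a.e. of the derivative of the mollification of a Lipschitz function -/
theorem ae_tendsto_fderiv_moll [FiniteDimensional ℝ F] {K : NNReal} {g : E → F}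
    (hg : LipschitzWith K g) :
    ∀ᵐ x, Tendsto (fun k => fderiv ℝ (moll (ker E k) g) x) atTop (𝓝 (fderiv ℝ g x)) := by
  have h := ae_tendsto_moll (locallyIntegrable_fderiv_of_lipschitz hg)
  filter_upwards [h] with x hx
  have e : ∀ k, fderiv ℝ (moll (ker E k) g) x = moll (ker E k) (fderiv ℝ g) x := fun k => by
    rw [fderiv_moll_of_lipschitz (ker_cont k) (ker_supp k) hg]
  simpa only [e] using hx

end Vale.Agent.P227.M.DENS
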